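import Mathlib

/-! Oracle computations by monotone approximations on finite prefixes, and Turing reducibility. -/

namespace Vale.Agent.P327

/-- Points of Cantor space, that is subsets of the natural numbers. -/
abbrev Cantor : Type := ℕ → Bool

/-- The characteristic function of a set, as a total oracle. -/
def ora (X : Cantor) : ℕ →. ℕ := fun n => Part.some (bif X n then 1 else 0)

/-- Turing reducibility of sets. -/
def TLe (X Y : Cantor) : Prop := TuringReducible (ora X) (ora Y)

/-- The prefix of length `k`. -/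
def pre (X : Cantor) (k : ℕ) : List Bool := (List.range k).map X

@[simp] theorem pre_length (X : Cantor) (k : ℕ) : (pre X k).length = k := by simp [pre]

theorem pre_prefix (X : Cantor) {j k : ℕ} (h : j ≤ k) : pre X j <+: pre X k := by
  unfold pre
  apply List.IsPrefix.map
  exact ⟨(List.range (k - j)).map (fun x => j + x), by rw [← List.range_add]; congr 1; omega⟩

theorem pre_getElem? (X : Cantor) (k n : ℕ) :
    (pre X k)[n]? = if n < k then some (X n) else none := by
  by_cases h : n < k <;> simp [pre, h]

theorem pre_take (X : Cantor) {j k : ℕ} (h : j ≤ k) : (pre X k).take j = pre X j := by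
  simp [pre, ← List.map_take, List.take_range, h]

theorem pre_succ (X : Cantor) (k : ℕ) : pre X (k + 1) = pre X k ++ [X k] := by
  simp [pre, List.range_succ]

/-- A primitive recursive monotone approximation of an oracle computation. -/
structure Func where
  f : List Bool → ℕ → Option Bool
  prim : Primrec₂ f
  mono : ∀ σ τ n v, σ <+: τ → f σ n = some v → f τ n = some v

/-- `F` computes `X` from the oracle `Y`. -/
def Red (F : Func) (Y X : Cantor) : Prop := ∀ n, ∃ k, F.f (pre Y k) n = some (X n)

theorem Red.at_large {F : Func} {Y X : Cantor} (h : Red F Y X) (j : ℕ) :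
    ∃ k0, ∀ k, k0 ≤ k → ∀ n, n < j → F.f (pre Y k) n = some (X n) := by
  choose K hK using h
  refine ⟨(Finset.range j).sup K, fun k hk n hn => F.mono _ _ _ _ (pre_prefix Y ?_) (hK n)⟩
  exact le_trans (Finset.le_sup (Finset.mem_range.2 hn)) hk

theorem Red.value {F : Func} {Y X : Cantor} (h : Red F Y X) {k n : ℕ} {v : Bool}
    (hv : F.f (pre Y k) n = some v) : v = X n := by
  obtain ⟨j, hj⟩ := h n
  have a := F.mono _ _ _ _ (pre_prefix Y (le_max_left j k)) hj
  have b := F.mono _ _ _ _ (pre_prefix Y (le_max_right j k)) hv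
  rw [a] at b
  exact (Option.some.inj b).symm

theorem Red.unique {F : Func} {Y X X' : Cantor} (h : Red F Y X) (h' : Red F Y X') : X = X' := by
  funext n
  obtain ⟨k, hk⟩ := h n
  exact h'.value hk

/-- The first successful trial among those indexed below the length of the oracle prefix. -/
def scanFn (h : List Bool → ℕ → ℕ → Option Bool) (σ : List Bool) (n : ℕ) : Option Bool :=
  (((List.range σ.length).map fun m => h (σ.take (Nat.unpair m).1) m n).flatMap
    Option.toList).head?

theorem scanFn_mono (h : List Bool → ℕ → ℕ → Option Bool) (σ τ : List Bool) (n : ℕ) (v : Bool)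
    (hp : σ <+: τ) (hv : scanFn h σ n = some v) : scanFn h τ n = some v := by
  obtain ⟨r, rfl⟩ := hp
  unfold scanFn at hv ⊢
  rw [List.length_append, List.range_add, List.map_append, List.flatMap_append]
  have e : (List.range σ.length).map (fun m => h ((σ ++ r).take (Nat.unpair m).1) m n) =
      (List.range σ.length).map (fun m => h (σ.take (Nat.unpair m).1) m n) := by
    refine List.map_congr_left fun m hm => ?_
    rw [List.mem_range] at hm
    rw [List.take_append_of_le_length (le_trans (Nat.unpair_left_le m) hm.le)]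
  rw [e, List.head?_append, hv]
  rfl

/-- The functional given by a scan. -/
def Func.scan (h : List Bool → ℕ → ℕ → Option Bool)
    (hp : Primrec fun p : List Bool × ℕ × ℕ => h p.1 p.2.1 p.2.2) : Func where
  f := scanFn h
  mono := scanFn_mono h
  prim := by
    unfold scanFn
    refine Primrec.list_head?.comp (Primrec.list_flatMap ?_ ?_)
    · refine Primrec.list_map (Primrec.list_range.comp (Primrec.list_length.comp Primrec.fst)) ?_
      exact hp.comp (Primrec.pair
        (Primrec.list_take.comp (Primrec.fst.comp (Primrec.unpair.comp Primrec.snd))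
          (Primrec.fst.comp Primrec.fst))
        (Primrec.pair Primrec.snd (Primrec.snd.comp Primrec.fst)))
    · have : Primrec (fun o : Option Bool => o.toList) :=
        (Primrec.option_casesOn Primrec.id (Primrec.const [])
          ((Primrec.list_cons.comp Primrec.snd (Primrec.const [])).to₂)).of_eq
          fun o => by cases o <;> rfl
      exact (this.comp Primrec.snd).to₂

theorem scanFn_some {h : List Bool → ℕ → ℕ → Option Bool} {σ : List Bool} {n : ℕ} {v : Bool}
    (hv : scanFn h σ n = some v) : ∃ m, m < σ.length ∧ h (σ.take (Nat.unpair m).1) m n = some v := by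
  have := List.mem_of_head? hv
  simpa [List.mem_flatMap] using this

/-- A scan computes `X` as soon as every trial is correct and some trial succeeds. -/
theorem Red.of_scan {h : List Bool → ℕ → ℕ → Option Bool}
    {hp : Primrec fun p : List Bool × ℕ × ℕ => h p.1 p.2.1 p.2.2} {Y X : Cantor}
    (sound : ∀ m n v, h (pre Y (Nat.unpair m).1) m n = some v → v = X n)
    (compl : ∀ n, ∃ m v, h (pre Y (Nat.unpair m).1) m n = some v) :
    Red (Func.scan h hp) Y X := by
  intro n
  obtain ⟨m, v, hm⟩ := compl n
  refine ⟨m + 1, ?_⟩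
  have tk : ∀ i, i < m + 1 → (pre Y (m + 1)).take (Nat.unpair i).1 = pre Y (Nat.unpair i).1 :=
    fun i hi => pre_take Y (le_trans (Nat.unpair_left_le i) hi.le)
  cases hc : scanFn h (pre Y (m + 1)) n with
  | none =>
    exfalso
    unfold scanFn at hc
    rw [List.head?_eq_none_iff, List.flatMap_eq_nil_iff] at hc
    have := hc (some v) (by
      simp only [List.mem_map, List.mem_range, pre_length]
      exact ⟨m, by omega, by rw [tk m (by omega)]; exact hm⟩)
    simp at this
  | some w =>
    obtain ⟨i, hi, hw⟩ := scanFn_some hc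
    rw [pre_length] at hi
    rw [tk i hi] at hw
    exact (congrArg some (sound i n w hw) ▸ hc :)

open Nat.Partrec (Code)

/-- Prefix approximations of an oracle computation. -/
def Approx (Y : Cantor) (h : ℕ →. ℕ) : Prop :=
  ∃ G : List Bool × ℕ →. ℕ, Partrec G ∧
    (∀ σ τ n v, σ <+: τ → v ∈ G (σ, n) → v ∈ G (τ, n)) ∧
    ∀ n v, v ∈ h n ↔ ∃ k, v ∈ G (pre Y k, n)

theorem approx_const (Y : Cantor) {g : ℕ → ℕ} (hg : Computable g) :
    Approx Y (fun n => Part.some (g n)) :=
  ⟨fun p => Part.some (g p.2), (hg.comp Computable.snd).partrec, fun _ _ _ _ _ hv => hv,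
    fun _ _ => ⟨fun h => ⟨0, h⟩, fun ⟨_, h⟩ => h⟩⟩

theorem approx_oracle (Y : Cantor) : Approx Y (ora Y) := by
  refine ⟨fun p => Part.ofOption ((p.1[p.2]?).map fun b => bif b then 1 else 0),
    Computable.ofOption (Primrec.to_comp ?_), ?_, ?_⟩
  · exact Primrec.option_map (Primrec.list_getElem?.comp Primrec.fst Primrec.snd)
      ((Primrec.cond Primrec.snd (Primrec.const 1) (Primrec.const 0)).to₂)
  · intro σ τ n v hp hv
    obtain ⟨r, rfl⟩ := hp
    simp only [Part.mem_ofOption, Option.mem_def, Option.map_eq_some_iff] at hv ⊢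
    obtain ⟨b, hb, hbv⟩ := hv
    have hl : n < σ.length := (List.getElem?_eq_some_iff.1 hb).1
    exact ⟨b, by rw [List.getElem?_append_left hl]; exact hb, hbv⟩
  · intro n v
    simp only [ora, Part.mem_some_iff, Part.mem_ofOption, Option.mem_def, pre_getElem?]
    constructor
    · intro h; exact ⟨n + 1, by simp [h]⟩
    · rintro ⟨k, hk⟩
      by_cases h : n < k <;> simp_all

theorem approx_of_recursiveIn (Y : Cantor) {h : ℕ →. ℕ} (hh : Nat.RecursiveIn {ora Y} h) :
    Approx Y h := by
  induction hh with
  | zero => exact approx_const Y (Computable.const 0)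
  | succ => exact approx_const Y Computable.succ
  | left => exact approx_const Y (Computable.fst.comp Computable.unpair)
  | right => exact approx_const Y (Computable.snd.comp Computable.unpair)
  | oracle g hg => rw [Set.mem_singleton_iff.1 hg]; exact approx_oracle Y
  | @pair f h _ _ ihf ihh =>
    obtain ⟨Gf, pf, mf, ef⟩ := ihf
    obtain ⟨Gh, ph, mh, eh⟩ := ihh
    refine ⟨fun p => (Gf p).bind fun a => (Gh p).map (Nat.pair a), ?_, ?_, ?_⟩
    · refine pf.bind (Partrec.map (ph.comp Computable.fst) ?_)
      exact (Primrec₂.natPair.to_comp.comp (Computable.snd.comp Computable.fst) Computable.snd).to₂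
    · intro σ τ n v hp hv
      simp only [Part.mem_bind_iff, Part.mem_map_iff] at hv ⊢
      obtain ⟨a, ha, b, hb, rfl⟩ := hv
      exact ⟨a, mf _ _ _ _ hp ha, b, mh _ _ _ _ hp hb, rfl⟩
    · intro n v
      simp only [Seq.seq, Part.map_eq_map, Part.bind_map, Part.mem_bind_iff, Part.mem_map_iff]
      constructor
      · rintro ⟨a, ha, b, hb, rfl⟩
        obtain ⟨i, hi⟩ := (ef _ _).1 ha
        obtain ⟨j, hj⟩ := (eh _ _).1 hb
        exact ⟨max i j, a, mf _ _ _ _ (pre_prefix Y (le_max_left i j)) hi,
          b, mh _ _ _ _ (pre_prefix Y (le_max_right i j)) hj, rfl⟩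
      · rintro ⟨k, a, ha, b, hb, rfl⟩
        exact ⟨a, (ef _ _).2 ⟨k, ha⟩, b, (eh _ _).2 ⟨k, hb⟩, rfl⟩
  | @comp f h _ _ ihf ihh =>
    obtain ⟨Gf, pf, mf, ef⟩ := ihf
    obtain ⟨Gh, ph, mh, eh⟩ := ihh
    refine ⟨fun p => (Gh p).bind fun a => Gf (p.1, a), ?_, ?_, ?_⟩
    · exact ph.bind (pf.comp ((Computable.fst.comp Computable.fst).pair Computable.snd)).to₂
    · intro σ τ n v hp hv
      simp only [Part.mem_bind_iff] at hv ⊢
      obtain ⟨a, ha, hv⟩ := hv
      exact ⟨a, mh _ _ _ _ hp ha, mf _ _ _ _ hp hv⟩
    · intro n v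
      refine (Part.mem_bind_iff.trans ?_).trans (exists_congr fun k => Part.mem_bind_iff.symm)
      constructor
      · rintro ⟨a, ha, hv⟩
        obtain ⟨i, hi⟩ := (eh _ _).1 ha
        obtain ⟨j, hj⟩ := (ef _ _).1 hv
        exact ⟨max i j, a, mh _ _ _ _ (pre_prefix Y (le_max_left i j)) hi,
          mf _ _ _ _ (pre_prefix Y (le_max_right i j)) hj⟩
      · rintro ⟨k, a, ha, hv⟩
        exact ⟨a, (eh _ _).2 ⟨k, ha⟩, (ef _ _).2 ⟨k, hv⟩⟩
  | @prec f h _ _ ihf ihh =>
    obtain ⟨Gf, pf, mf, ef⟩ := ihf
    obtain ⟨Gh, ph, mh, eh⟩ := ihh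
    let R : List Bool → ℕ → ℕ → Part ℕ := fun σ a y =>
      y.rec (Gf (σ, a)) fun y IH => IH.bind fun i => Gh (σ, Nat.pair a (Nat.pair y i))
    refine ⟨fun p => R p.1 p.2.unpair.1 p.2.unpair.2, ?_, ?_, ?_⟩
    · show Partrec fun p : List Bool × ℕ => R p.1 p.2.unpair.1 p.2.unpair.2
      simp only [R]
      refine Partrec.nat_rec (h := fun (p : List Bool × ℕ) (q : ℕ × ℕ) =>
          Gh (p.1, Nat.pair p.2.unpair.1 (Nat.pair q.1 q.2)))
        (Computable.snd.comp (Computable.unpair.comp Computable.snd))
        (pf.comp (Computable.fst.pair (Computable.fst.comp (Computable.unpair.comp Computable.snd))))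
        ?_
      have hst : Computable fun z : (List Bool × ℕ) × (ℕ × ℕ) => z.1.1 :=
        Computable.fst.comp Computable.fst
      have harg : Computable fun z : (List Bool × ℕ) × (ℕ × ℕ) =>
          Nat.pair z.1.2.unpair.1 (Nat.pair z.2.1 z.2.2) := Primrec₂.natPair.to_comp.comp
        (Computable.fst.comp (Computable.unpair.comp (Computable.snd.comp Computable.fst)))
        (Primrec₂.natPair.to_comp.comp (Computable.fst.comp Computable.snd)
          (Computable.snd.comp Computable.snd))
      exact (ph.comp (hst.pair harg)).to₂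
    · intro σ τ n v hp
      show v ∈ R σ n.unpair.1 n.unpair.2 → v ∈ R τ n.unpair.1 n.unpair.2
      generalize n.unpair.1 = a
      generalize n.unpair.2 = y
      induction y generalizing v with
      | zero => exact fun hv => mf _ _ _ _ hp hv
      | succ y ih =>
        simp only [R, Part.mem_bind_iff]
        rintro ⟨i, hi, hv⟩
        exact ⟨i, ih i hi, mh _ _ _ _ hp hv⟩
    · intro n v
      simp only [R]
      generalize n.unpair.1 = a
      generalize n.unpair.2 = y
      induction y generalizing v with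
      | zero => exact ef a v
      | succ y ih =>
        simp only [Part.bind_eq_bind, Part.mem_bind_iff]
        constructor
        · rintro ⟨i, hi, hv⟩
          obtain ⟨k, hk⟩ := (ih i).1 hi
          obtain ⟨j, hj⟩ := (eh _ _).1 hv
          refine ⟨max k j, i, ?_, mh _ _ _ _ (pre_prefix Y (le_max_right k j)) hj⟩
          have hp := pre_prefix Y (le_max_left k j)
          clear ih hi hv hj
          revert hk
          generalize i = w
          induction y generalizing w with
          | zero => exact fun hw => mf _ _ _ _ hp hw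
          | succ y ih =>
            simp only [Part.mem_bind_iff]
            rintro ⟨u, hu, hw⟩
            exact ⟨u, ih u hu, mh _ _ _ _ hp hw⟩
        · rintro ⟨k, i, hi, hv⟩
          exact ⟨i, (ih i).2 ⟨k, hi⟩, (eh _ _).2 ⟨k, hv⟩⟩
  | @rfind f _ ihf =>
    obtain ⟨Gf, pf, mf, ef⟩ := ihf
    refine ⟨fun p => Nat.rfind fun n => (Gf (p.1, Nat.pair p.2 n)).map fun m => decide (m = 0),
      ?_, ?_, ?_⟩
    · refine Partrec.rfind (Partrec.map (pf.comp ((Computable.fst.comp Computable.fst).pair
        (Primrec₂.natPair.to_comp.comp (Computable.snd.comp Computable.fst) Computable.snd))) ?_)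
      exact ((Primrec.eq.comp Primrec.snd (Primrec.const 0)).decide.to_comp).to₂
    · intro σ τ n v hp hv
      have hv' := Nat.mem_rfind.1 hv
      clear hv
      refine Nat.mem_rfind.2 ?_
      revert hv'
      simp only [Part.mem_map_iff]
      intro hv
      obtain ⟨⟨a, ha, e⟩, h2⟩ := hv
      refine ⟨⟨a, mf _ _ _ _ hp ha, e⟩, fun {m} hm => ?_⟩
      obtain ⟨b, hb, e'⟩ := h2 hm
      exact ⟨b, mf _ _ _ _ hp hb, e'⟩
    · intro n v
      refine (Nat.mem_rfind.trans ?_).trans
        (exists_congr fun k => Nat.mem_rfind.symm)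
      simp only [Part.map_eq_map, Part.mem_map_iff]
      constructor
      · rintro ⟨⟨a, ha, e⟩, h2⟩
        choose b hb hbe using fun m => @h2 m
        choose K hK using fun m (hm : m < v) => (ef _ _).1 (hb m hm)
        obtain ⟨k, hk⟩ := (ef _ _).1 ha
        refine ⟨max k ((Finset.range v).sup fun m => if hm : m < v then K m hm else 0),
          ⟨a, mf _ _ _ _ (pre_prefix Y (le_max_left _ _)) hk, e⟩, fun {m} hm => ⟨b m hm, ?_, hbe m hm⟩⟩
        refine mf _ _ _ _ (pre_prefix Y ?_) (hK m hm)
        refine le_trans ?_ (le_max_right _ _)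
        refine le_trans (le_of_eq ?_) (Finset.le_sup (Finset.mem_range.2 hm))
        simp [hm]
      · rintro ⟨k, ⟨a, ha, e⟩, h2⟩
        refine ⟨⟨a, (ef _ _).2 ⟨k, ha⟩, e⟩, fun {m} hm => ?_⟩
        obtain ⟨b, hb, e'⟩ := h2 hm
        exact ⟨b, (ef _ _).2 ⟨k, hb⟩, e'⟩

theorem exists_red_of_le {X Y : Cantor} (h : TLe X Y) : ∃ F, Red F Y X := by
  have h' : Nat.RecursiveIn {ora Y} (ora X) := RecursiveIn.iff_nat.1 h
  obtain ⟨G, pG, _, eG⟩ := approx_of_recursiveIn Y h'
  obtain ⟨c, hc⟩ := Nat.Partrec.Code.exists_code.1 pG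
  let t : List Bool → ℕ → ℕ → Option Bool := fun σ m n =>
    (Nat.Partrec.Code.evaln m c (Encodable.encode (σ, n))).map fun v => v == 1
  have tp : Primrec fun p : List Bool × ℕ × ℕ => t p.1 p.2.1 p.2.2 := by
    refine Primrec.option_map (Nat.Partrec.Code.primrec_evaln.comp
      (Primrec.pair (Primrec.pair (Primrec.fst.comp Primrec.snd) (Primrec.const c))
        (Primrec.encode.comp (Primrec.pair Primrec.fst (Primrec.snd.comp Primrec.snd))))) ?_
    exact (Primrec.beq.comp Primrec.snd (Primrec.const 1)).to₂
  refine ⟨Func.scan t tp, Red.of_scan ?_ ?_⟩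
  · intro m n v hv
    simp only [t, Option.map_eq_some_iff] at hv
    obtain ⟨w, hw, rfl⟩ := hv
    have := Nat.Partrec.Code.evaln_sound (Option.mem_def.2 hw)
    rw [hc] at this
    simp only [Encodable.encodek, Part.coe_some, Part.bind_some, Part.mem_map_iff,
      Encodable.encode_nat, exists_eq_right] at this
    have := (eG n w).2 ⟨_, this⟩
    rw [ora, Part.mem_some_iff] at this
    cases hx : X n <;> simp [hx] at this <;> simp [this]
  · intro n
    obtain ⟨k, hk⟩ := (eG n _).1 (by rw [ora]; exact Part.mem_some _)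
    have he : (bif X n then 1 else 0) ∈ c.eval (Encodable.encode (pre Y k, n)) := by
      rw [hc]; simpa using hk
    obtain ⟨s, hs⟩ := Nat.Partrec.Code.evaln_complete.1 he
    refine ⟨Nat.pair k s, X n, ?_⟩
    have := Nat.Partrec.Code.evaln_mono (Nat.right_le_pair k s) hs
    simp only [t, Nat.unpair_pair, Option.mem_def.1 this, Option.map_some]
    cases X n <;> rfl

theorem le_of_red {F : Func} {X Y : Cantor} (h : Red F Y X) : TLe X Y := by
  refine RecursiveIn.iff_nat.2 ?_
  let O : Set (ℕ →. ℕ) := {ora Y}
  have prim : ∀ {g : ℕ → ℕ}, Primrec g → Nat.RecursiveIn O fun n => Part.some (g n) :=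
    fun hg => Nat.Primrec.recursiveIn (Primrec.nat_iff.1 hg)
  let dec : ℕ → List Bool := fun e => (Encodable.decode (α := List Bool) e).getD []
  have pdec : Primrec dec := Primrec.option_getD.comp Primrec.decode (Primrec.const [])
  let snoc : ℕ → ℕ := fun m =>
    Encodable.encode (dec m.unpair.1 ++ [m.unpair.2 == 1])
  have psnoc : Primrec snoc := Primrec.encode.comp (Primrec.list_concat.comp
    (pdec.comp (Primrec.fst.comp Primrec.unpair))
    (Primrec.beq.comp (Primrec.snd.comp Primrec.unpair) (Primrec.const 1)))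
  have hy : Nat.RecursiveIn O fun z => Part.some (bif Y z.unpair.2.unpair.1 then 1 else 0) :=
    (Nat.RecursiveIn.comp (Nat.RecursiveIn.oracle (ora Y) (Set.mem_singleton _))
      (prim (g := fun z => z.unpair.2.unpair.1) (Primrec.fst.comp (Primrec.unpair.comp
        (Primrec.snd.comp Primrec.unpair))))).of_eq
      fun z => (Part.bind_some _ _).trans rfl
  have hstep := Nat.RecursiveIn.comp (prim psnoc) (Nat.RecursiveIn.pair
    (prim (g := fun z => z.unpair.2.unpair.2) (Primrec.snd.comp (Primrec.unpair.comp
      (Primrec.snd.comp Primrec.unpair)))) hy)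
  have hpre : Nat.RecursiveIn O fun p => Part.some (Encodable.encode (pre Y p.unpair.2)) := by
    refine (Nat.RecursiveIn.prec (prim (g := fun _ => Encodable.encode ([] : List Bool))
      (Primrec.const _)) hstep).of_eq fun p => ?_
    show _ = Part.some (Encodable.encode (pre Y p.unpair.2))
    obtain ⟨a, b⟩ : ∃ a, ∃ b, p.unpair = (a, b) := ⟨_, _, rfl⟩
    rw [b.choose_spec]
    show (Nat.rec _ _ b.choose : Part ℕ) = _
    generalize b.choose = k
    induction k with
    | zero => rfl
    | succ k ih =>
      simp only [Part.bind_eq_bind, Part.bind_some, Seq.seq, Part.map_eq_map, Part.map_some,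
        Nat.unpair_pair] at ih ⊢
      rw [ih, Part.bind_some]
      simp [snoc, dec, pre_succ]
      cases Y k <;> rfl
  let test : ℕ → ℕ := fun m =>
    bif (F.f (dec m.unpair.1) m.unpair.2).isSome then 0 else 1
  let val : ℕ → ℕ := fun m =>
    bif (F.f (dec m.unpair.1) m.unpair.2).getD false then 1 else 0
  have ptest : Primrec test := Primrec.cond (Primrec.option_isSome.comp (F.prim.comp
    (pdec.comp (Primrec.fst.comp Primrec.unpair)) (Primrec.snd.comp Primrec.unpair)))
    (Primrec.const 0) (Primrec.const 1)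
  have pval : Primrec val := Primrec.cond (Primrec.option_getD.comp (F.prim.comp
    (pdec.comp (Primrec.fst.comp Primrec.unpair)) (Primrec.snd.comp Primrec.unpair))
    (Primrec.const false)) (Primrec.const 1) (Primrec.const 0)
  have hA : Nat.RecursiveIn O fun p =>
      Part.some (Nat.pair (Encodable.encode (pre Y p.unpair.2)) p.unpair.1) :=
    (Nat.RecursiveIn.pair hpre (prim (Primrec.fst.comp Primrec.unpair))).of_eq
      fun p => by simp [Seq.seq]
  have hfind := Nat.RecursiveIn.rfind (Nat.RecursiveIn.comp (prim ptest) hA)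
  have hout := Nat.RecursiveIn.comp (prim pval) (Nat.RecursiveIn.comp hA
    (Nat.RecursiveIn.pair (prim Primrec.id) hfind))
  refine hout.of_eq fun n => ?_
  obtain ⟨k, hk, hmin⟩ : ∃ k, (F.f (pre Y k) n).isSome ∧
      ∀ j, j < k → ¬(F.f (pre Y j) n).isSome := by
    classical
    have e : ∃ k, (F.f (pre Y k) n).isSome := by
      obtain ⟨k, hk⟩ := h n; exact ⟨k, by simp [hk]⟩
    exact ⟨Nat.find e, Nat.find_spec e, fun j hj => Nat.find_min e hj⟩
  have hrf : (Nat.rfind fun i => Part.some (decide
      (test (Nat.pair (Encodable.encode (pre Y i)) n) = 0))) = Part.some k := by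
    refine Part.eq_some_iff.2 (Nat.mem_rfind.2 ⟨?_, fun {j} hj => ?_⟩)
    · simp [test, dec, hk]
    · simp [test, dec, hmin j hj]
  simp only [Seq.seq, Part.map_eq_map, Part.map_some, Part.bind_eq_bind, Part.bind_some,
    id_eq, Nat.unpair_pair, ora]
  rw [hrf]
  simp only [Part.map_some, Part.bind_some, Nat.unpair_pair, val, dec, Encodable.encodek,
    Option.getD_some]
  obtain ⟨v, hv⟩ := Option.isSome_iff_exists.1 hk
  rw [hv, h.value hv]
  rfl

theorem tle_iff {X Y : Cantor} : TLe X Y ↔ ∃ F, Red F Y X :=
  ⟨exists_red_of_le, fun ⟨_, h⟩ => le_of_red h⟩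

theorem tle_refl (X : Cantor) : TLe X X := TuringReducible.refl _

theorem tle_trans {X Y Z : Cantor} (h : TLe X Y) (h' : TLe Y Z) : TLe X Z :=
  TuringReducible.trans h h'

instance : Countable Func := by
  have : ∀ F : Func, ∃ c : Code, c.eval = fun m => Part.some (Encodable.encode
      (((Encodable.decode (α := List Bool × ℕ) m).map fun p => F.f p.1 p.2))) := fun F =>
    Nat.Partrec.Code.exists_code.1 (Partrec.nat_iff.1 (Primrec.to_comp (Primrec.encode.comp
      (Primrec.option_map Primrec.decode ((F.prim.comp (Primrec.fst.comp Primrec.snd)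
        (Primrec.snd.comp Primrec.snd)).to₂)))).partrec)
  choose c hc using this
  refine Function.Injective.countable (f := c) fun F G e => ?_
  have h := (hc F).symm.trans ((congrArg Code.eval e).trans (hc G))
  obtain ⟨f, _, _⟩ := F
  obtain ⟨g, _, _⟩ := G
  congr
  funext σ n
  have := congrFun h (Encodable.encode (σ, n))
  simpa using this

end Vale.Agent.P327
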