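import Vale.Agent.P327.Func

/-! Baire category on Cantor space and its square. -/

namespace Vale.Agent.P327

open Set TopologicalSpace Filter

variable {X : Type*} [TopologicalSpace X]

/-- `S` is comeagre inside `B`. -/
def ResIn (B S : Set X) : Prop := S ∪ Bᶜ ∈ residual X

theorem ResIn.mono {B S T : Set X} (h : ResIn B S) (hST : ∀ x ∈ B, x ∈ S → x ∈ T) : ResIn B T := by
  refine mem_of_superset h fun x hx => ?_
  by_cases hB : x ∈ B
  · rcases hx with hx | hx
    · exact Or.inl (hST x hB hx)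
    · exact absurd hB hx
  · exact Or.inr hB

theorem ResIn.subset {B B' S : Set X} (h : ResIn B S) (hB : B' ⊆ B) : ResIn B' S :=
  mem_of_superset h (union_subset_union_right S (compl_subset_compl.2 hB))

theorem ResIn.inter {B S T : Set X} (h : ResIn B S) (h' : ResIn B T) : ResIn B (S ∩ T) := by
  refine mem_of_superset (Filter.inter_mem h h') fun x hx => ?_
  rcases hx with ⟨a | a, b | b⟩ <;> simp_all

theorem ResIn.iInter {ι : Type*} [Countable ι] {B : Set X} {S : ι → Set X}
    (h : ∀ i, ResIn B (S i)) : ResIn B (⋂ i, S i) := by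
  refine mem_of_superset ((countable_iInter_mem).2 h) fun x hx => ?_
  by_cases hB : x ∈ B
  · exact Or.inl (mem_iInter.2 fun i => (mem_iInter.1 hx i).resolve_right (not_not.2 hB))
  · exact Or.inr hB

theorem ResIn.exists_mem [BaireSpace X] {B S : Set X} (h : ResIn B S) (ho : IsOpen B)
    (hne : B.Nonempty) : ∃ x ∈ B, x ∈ S := by
  obtain ⟨x, hxB, hx⟩ := (dense_of_mem_residual h).inter_open_nonempty B ho hne
  exact ⟨x, hxB, hx.resolve_right (not_not.2 hxB)⟩

theorem residual_preimage {Y : Type*} [TopologicalSpace Y] {h : X → Y} (hc : Continuous h)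
    (ho : IsOpenMap h) {S : Set Y} (hS : S ∈ residual Y) : h ⁻¹' S ∈ residual X := by
  obtain ⟨𝒰, hop, hde, hcount, hsub⟩ := mem_residual_iff.1 hS
  refine mem_residual_iff.2 ⟨(h ⁻¹' ·) '' 𝒰, ?_, ?_, hcount.image _, ?_⟩
  · rintro _ ⟨U, hU, rfl⟩; exact (hop U hU).preimage hc
  · rintro _ ⟨U, hU, rfl⟩; exact (hde U hU).preimage ho
  · intro x hx
    refine hsub ?_
    intro U hU
    exact hx _ ⟨U, hU, rfl⟩

theorem ResIn.preimage {Y : Type*} [TopologicalSpace Y] {h : X → Y} (hc : Continuous h)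
    (ho : IsOpenMap h) {B : Set X} {B' S : Set Y} (hS : ResIn B' S) (hB : MapsTo h B B') :
    ResIn B (h ⁻¹' S) := by
  refine mem_of_superset (residual_preimage hc ho hS) fun x hx => ?_
  by_cases hx' : x ∈ B
  · exact Or.inl (hx.resolve_right (not_not.2 (hB hx')))
  · exact Or.inr hx'

/-- A countable cover of a nonempty open set has a member dense in some open part. -/
theorem baire_cover [BaireSpace X] {ι : Type*} [Countable ι] {E : ι → Set X} {O : Set X}
    (ho : IsOpen O) (hne : O.Nonempty) (hcov : ∀ x ∈ O, ∃ i, x ∈ E i) :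
    ∃ i U, IsOpen U ∧ U.Nonempty ∧ U ⊆ O ∧ U ⊆ closure (E i) := by
  let F : Option ι → Set X := fun o => o.elim Oᶜ fun i => closure (E i)
  have hd : Dense (⋃ o, interior (F o)) := by
    refine dense_iUnion_interior_of_closed (fun o => ?_) ?_
    · cases o
      · exact ho.isClosed_compl
      · exact isClosed_closure
    · refine eq_univ_of_forall fun x => mem_iUnion.2 ?_
      by_cases hx : x ∈ O
      · obtain ⟨i, hi⟩ := hcov x hx
        exact ⟨some i, subset_closure hi⟩
      · exact ⟨none, hx⟩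
  obtain ⟨x, hxO, hx⟩ := hd.inter_open_nonempty O ho hne
  obtain ⟨o, ho'⟩ := mem_iUnion.1 hx
  cases o with
  | none => exact absurd hxO (interior_subset ho')
  | some i =>
    exact ⟨i, O ∩ interior (closure (E i)), ho.inter isOpen_interior, ⟨x, hxO, ho'⟩,
      inter_subset_left, inter_subset_right.trans interior_subset⟩

theorem resIn_of_dense {B E : Set X} (hB : IsClosed B) (hE : IsGδ E) (hsub : B ⊆ closure E) :
    ResIn B E := by
  refine residual_of_dense_Gδ (hE.union hB.isOpen_compl.isGδ) fun x => ?_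
  by_cases hx : x ∈ B
  · exact closure_mono subset_union_left (hsub hx)
  · exact subset_closure (Or.inr hx)

open PiNat in
theorem exists_cylinder_subset {O : Set Cantor} (ho : IsOpen O) {x : Cantor} (hx : x ∈ O) (k : ℕ) :
    ∃ n, k ≤ n ∧ cylinder x n ⊆ O := by
  obtain ⟨V, ⟨y, n, rfl⟩, hxV, hV⟩ :=
    (PiNat.isTopologicalBasis_cylinders fun _ : ℕ => Bool).exists_subset_of_mem_open hx ho
  refine ⟨max n k, le_max_right _ _, (cylinder_anti x (le_max_left n k)).trans ?_⟩
  rw [mem_cylinder_iff_eq.1 hxV]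
  exact hV

theorem isClopen_cylinder (x : Cantor) (n : ℕ) : IsClopen (PiNat.cylinder x n) := by
  rw [PiNat.cylinder_eq_pi]
  exact ⟨isClosed_set_pi fun _ _ => isClosed_singleton,
    isOpen_set_pi (Finset.finite_toSet _) fun _ _ => isOpen_discrete _⟩

/-- Baire category for one variable. -/
theorem baire_one {ι : Type*} [Countable ι] {E : ι → Set Cantor} (x0 : Cantor) (k : ℕ)
    (hE : ∀ i, IsGδ (E i)) (hcov : ∀ x, ∃ i, x ∈ E i) :
    ∃ i x n, k ≤ n ∧ x ∈ PiNat.cylinder x0 k ∧ ResIn (PiNat.cylinder x n) (E i) := by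
  obtain ⟨i, U, hUo, ⟨x, hx⟩, hUO, hUE⟩ := baire_cover (isClopen_cylinder x0 k).isOpen
    ⟨x0, PiNat.self_mem_cylinder _ _⟩ fun x _ => hcov x
  obtain ⟨n, hkn, hn⟩ := exists_cylinder_subset hUo hx k
  exact ⟨i, x, n, hkn, hUO hx, resIn_of_dense (isClopen_cylinder x n).isClosed (hE i)
    (hn.trans hUE)⟩

/-- Baire category for two variables, with a box of equal levels. -/
theorem baire_two {ι : Type*} [Countable ι] {E : ι → Set (Cantor × Cantor)} (x0 y0 : Cantor)
    (k : ℕ) (hE : ∀ i, IsGδ (E i)) (hcov : ∀ p, ∃ i, p ∈ E i) :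
    ∃ i x y n, k ≤ n ∧ x ∈ PiNat.cylinder x0 k ∧ y ∈ PiNat.cylinder y0 k ∧
      ResIn (PiNat.cylinder x n ×ˢ PiNat.cylinder y n) (E i) := by
  obtain ⟨i, U, hUo, ⟨⟨x, y⟩, hxy⟩, hUO, hUE⟩ := baire_cover
    ((isClopen_cylinder x0 k).isOpen.prod (isClopen_cylinder y0 k).isOpen)
    ⟨(x0, y0), PiNat.self_mem_cylinder _ _, PiNat.self_mem_cylinder _ _⟩ fun p _ => hcov p
  obtain ⟨u, v, hu, hv, hxu, hyv, huv⟩ := isOpen_prod_iff.1 hUo x y hxy
  obtain ⟨n, hkn, hn⟩ := exists_cylinder_subset hu hxu k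
  obtain ⟨m, hkm, hm⟩ := exists_cylinder_subset hv hyv k
  refine ⟨i, x, y, max n m, le_trans hkn (le_max_left _ _), (hUO hxy).1, (hUO hxy).2,
    resIn_of_dense ((isClopen_cylinder x _).isClosed.prod (isClopen_cylinder y _).isClosed) (hE i) ?_⟩
  refine Subset.trans ?_ ((prod_mono hn hm).trans (huv.trans hUE))
  exact prod_mono (PiNat.cylinder_anti x (le_max_left _ _)) (PiNat.cylinder_anti y (le_max_right _ _))

/-- Sections of a comeagre subset of the square are comeagre, for a comeagre set of parameters. -/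
theorem residual_sections {S : Set (Cantor × Cantor)} (hS : S ∈ residual (Cantor × Cantor)) :
    {a | {b | (a, b) ∈ S} ∈ residual Cantor} ∈ residual Cantor := by
  obtain ⟨𝒰, hop, hde, hcount, hsub⟩ := mem_residual_iff.1 hS
  obtain ⟨b, hbc, hbne, hb⟩ := TopologicalSpace.exists_countable_basis Cantor
  have key : ∀ U ∈ 𝒰, ∀ V ∈ b, (Prod.fst '' (U ∩ univ ×ˢ V)) ∈ residual Cantor := by
    intro U hU V hV
    have hVo := hb.isOpen hV
    have hVne : V.Nonempty := nonempty_iff_ne_empty.2 fun h => hbne (h ▸ hV)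
    refine residual_of_dense_open
      (isOpenMap_fst _ ((hop U hU).inter (isOpen_univ.prod hVo))) ?_
    refine dense_iff_inter_open.2 fun W hW hWne => ?_
    obtain ⟨⟨a, c⟩, hac, hU'⟩ := (hde U hU).inter_open_nonempty (W ×ˢ V) (hW.prod hVo) (hWne.prod hVne)
    exact ⟨a, hac.1, (a, c), ⟨hU', mem_univ _, hac.2⟩, rfl⟩
  have := (countable_bInter_mem hcount).2 fun U hU => (countable_bInter_mem hbc).2 (key U hU)
  refine mem_of_superset this fun a ha => ?_
  refine mem_residual_iff.2 ⟨(fun U => {c | (a, c) ∈ U}) '' 𝒰, ?_, ?_, hcount.image _, ?_⟩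
  · rintro _ ⟨U, hU, rfl⟩; exact (hop U hU).preimage (Continuous.prodMk_right a)
  · rintro _ ⟨U, hU, rfl⟩
    refine hb.dense_iff.2 fun V hV _ => ?_
    simp only [mem_iInter] at ha
    obtain ⟨⟨a', c⟩, ⟨hU', -, hc⟩, rfl⟩ := ha U hU V hV
    exact ⟨c, hc, hU'⟩
  · intro c hc
    refine hsub ?_
    intro U hU
    exact hc _ ⟨U, hU, rfl⟩

theorem continuous_bit (i : ℕ) : Continuous fun x : Cantor => x i := continuous_apply i

/-- The set where a functional succeeds is a `Gδ`. -/
theorem isGδ_red (F : Func) {u v : X → Cantor} (hu : Continuous u) (hv : Continuous v) :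
    IsGδ {p | Red F (u p) (v p)} := by
  have : {p | Red F (u p) (v p)} = ⋂ n, ⋃ k, {p | F.f (pre (u p) k) n = some (v p n)} := by
    ext p; simp [Red]
  rw [this]
  refine IsGδ.iInter_of_isOpen fun n => isOpen_iUnion fun k => ?_
  have hc : IsLocallyConstant fun p => decide (F.f (pre (u p) k) n = some (v p n)) := by
    refine IsLocallyConstant.iff_continuous _ |>.2 ?_
    let G : (Fin k → Bool) × Bool → Bool := fun z =>
      decide (F.f ((List.range k).map fun i => if h : i < k then z.1 ⟨i, h⟩ else false) n = some z.2)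
    have e : (fun p => decide (F.f (pre (u p) k) n = some (v p n))) =
        fun p => G (fun i => u p i, v p n) := by
      funext p
      have ep : pre (u p) k =
          (List.range k).map fun i => if h : i < k then (fun i : Fin k => u p i) ⟨i, h⟩ else false :=
        List.map_congr_left fun i hi => by simp [List.mem_range.1 hi]
      simp only [G, ep]
    rw [e]
    exact (continuous_of_discreteTopology (f := G)).comp
      ((continuous_pi fun i : Fin k => (continuous_bit (i : ℕ)).comp hu).prodMk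
        ((continuous_bit n).comp hv))
  simpa using hc.isOpen_fiber true

end Vale.Agent.P327
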