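import Vale.Agent.P327.Ops
import Vale.Agent.P327.Topo

/-! Iterated functionals, interleaved prefixes and minimal pairs over a base. -/

namespace Vale.Agent.P327

open Set

/-- Interleaving of two finite strings. -/
def jn (s t : List Bool) : List Bool :=
  (List.range (2 * min s.length t.length)).map fun i =>
    bif i % 2 == 0 then s.getD (i / 2) false else t.getD (i / 2) false

theorem jn_primrec : Primrec₂ jn := by
  refine Primrec.list_map (Primrec.list_range.comp (Primrec.nat_mul.comp (Primrec.const 2)
    (Primrec.nat_min.comp (Primrec.list_length.comp Primrec.fst)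
      (Primrec.list_length.comp Primrec.snd)))) ?_
  exact (Primrec.cond (primrec_even.comp Primrec.snd)
    ((Primrec.list_getD false).comp (Primrec.fst.comp Primrec.fst)
      (Primrec.nat_div.comp Primrec.snd (Primrec.const 2)))
    ((Primrec.list_getD false).comp (Primrec.snd.comp Primrec.fst)
      (Primrec.nat_div.comp Primrec.snd (Primrec.const 2)))).to₂

theorem pre_getD (X : Cantor) {k n : ℕ} (h : n < k) : (pre X k).getD n false = X n := by
  simp [List.getD_eq_getElem?_getD, h]

theorem jn_pre (X Y : Cantor) (i j : ℕ) :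
    jn (pre X i) (pre Y j) = pre (join X Y) (2 * min i j) := by
  unfold jn
  rw [pre_length, pre_length]
  show _ = (List.range _).map (join X Y)
  refine List.map_congr_left fun n hn => ?_
  rw [List.mem_range] at hn
  have h1 : n / 2 < i := by omega
  have h2 : n / 2 < j := by omega
  rcases Nat.mod_two_eq_zero_or_one n with h | h <;>
    simp [join, h, List.getD_eq_getElem?_getD, h1, h2]

theorem iterate_scl_mono (M : Func) {σ τ : List Bool} (h : σ <+: τ) :
    ∀ n, (scl M)^[n] σ <+: (scl M)^[n] τ
  | 0 => h
  | n + 1 => by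
    rw [Function.iterate_succ_apply', Function.iterate_succ_apply']
    exact scl_mono M (iterate_scl_mono M h n)

/-- Iterate a functional `n` times and read the answer off the first `N` bits. -/
def Func.iter (M : Func) (N : ℕ) (h : List Bool → Bool) : Func where
  f σ n := bif decide (N ≤ ((scl M)^[n] σ).length) then some (h (((scl M)^[n] σ).take N)) else none
  prim := by
    have hi : Primrec fun p : List Bool × ℕ => (scl M)^[p.2] p.1 :=
      Primrec.nat_iterate Primrec.snd Primrec.fst ((scl_primrec M).comp Primrec.snd).to₂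
    exact Primrec.cond
      ((Primrec.nat_le.comp (Primrec.const N) (Primrec.list_length.comp hi)).decide)
      (Primrec.option_some.comp ((primrec_take_fun N h).comp hi)) (Primrec.const none)
  mono σ τ n v hp hv := by
    have hs := iterate_scl_mono M hp n
    by_cases hN : N ≤ ((scl M)^[n] σ).length
    · have hN' := le_trans hN hs.length_le
      obtain ⟨r, hr⟩ := hs
      simp only [hN, hN', decide_true, cond_true] at hv ⊢
      rw [← hr, List.take_append_of_le_length hN]
      exact hv
    · simp [hN] at hv

theorem iterate_scl_large {M : Func} {S : ℕ → Cantor} (h : ∀ i, Red M (S i) (S (i + 1))) :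
    ∀ n j, ∃ k0, ∀ k, k0 ≤ k → ∃ l, j ≤ l ∧ (scl M)^[n] (pre (S 0) k) = pre (S n) l := by
  intro n
  induction n with
  | zero => exact fun j => ⟨j, fun k hk => ⟨k, hk, rfl⟩⟩
  | succ n ih =>
    intro j
    obtain ⟨k1, hk1⟩ := red_scl_large (h n) j
    obtain ⟨k0, hk0⟩ := ih k1
    refine ⟨k0, fun k hk => ?_⟩
    obtain ⟨l, hl, e⟩ := hk0 k hk
    rw [Function.iterate_succ_apply', e]
    exact ⟨_, hk1 l hl, red_scl (h n) l⟩

theorem red_iter {M : Func} {N : ℕ} {h : List Bool → Bool} {S : ℕ → Cantor} {out : Cantor}
    (hS : ∀ i, Red M (S i) (S (i + 1))) (ho : ∀ n, h (pre (S n) N) = out n) :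
    Red (Func.iter M N h) (S 0) out := by
  intro n
  obtain ⟨k, hk⟩ := iterate_scl_large hS n N
  obtain ⟨l, hl, e⟩ := hk k le_rfl
  exact ⟨k, by simp [Func.iter, e, hl, pre_take _ hl, ho n]⟩

theorem continuous_join : Continuous fun p : Cantor × Cantor => join p.1 p.2 := by
  refine continuous_pi fun n => ?_
  unfold join
  split_ifs
  · exact (continuous_apply _).comp continuous_fst
  · exact (continuous_apply _).comp continuous_snd

/-- A computation of `Z` from `a` by searching extensions of a fixed string on the other side. -/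
theorem le_of_dense_red {F : Func} {a Z x : Cantor} {m0 : ℕ}
    (hd : PiNat.cylinder x m0 ⊆ closure {b | Red F (join a b) Z}) : TLe Z a := by
  let τ := pre x m0
  let ext : ℕ → List Bool := fun m =>
    τ ++ (Encodable.decode (α := List Bool) (Nat.unpair m).2).getD []
  let h : List Bool → ℕ → ℕ → Option Bool := fun σ m n => F.f (jn σ (ext m)) n
  have hp : Primrec fun p : List Bool × ℕ × ℕ => h p.1 p.2.1 p.2.2 := by
    have he : Primrec ext := Primrec.list_append.comp (Primrec.const τ)
      (Primrec.option_getD.comp (Primrec.decode.comp (Primrec.snd.comp Primrec.unpair))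
        (Primrec.const []))
    exact F.prim.comp (jn_primrec.comp Primrec.fst (he.comp (Primrec.fst.comp Primrec.snd)))
      (Primrec.snd.comp Primrec.snd)
  refine tle_iff.2 ⟨Func.scan h hp, Red.of_scan ?_ ?_⟩
  · intro m n v hv
    let z : Cantor := fun i => (ext m).getD i false
    have hlen : m0 ≤ (ext m).length := by simp [ext, τ]
    have hz : z ∈ PiNat.cylinder x m0 := fun i hi => by
      simp [z, ext, τ, List.getD_eq_getElem?_getD, hi, List.getElem?_append_left]
    obtain ⟨b, hb, hbE⟩ := mem_closure_iff.1 (hd hz) _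
      (isClopen_cylinder z (ext m).length).isOpen (PiNat.self_mem_cylinder _ _)
    have e : ext m = pre b (ext m).length := by
      refine List.ext_getElem (by simp) fun i h1 h2 => ?_
      rw [pre_getElem, hb i h1]
      simp [z, List.getD_eq_getElem?_getD, h1]
    simp only [h] at hv
    rw [e, jn_pre] at hv
    exact hbE.value hv
  · intro n
    obtain ⟨b, hb, hbE⟩ := mem_closure_iff.1 (hd (PiNat.self_mem_cylinder _ _)) _
      (isClopen_cylinder x m0).isOpen (PiNat.self_mem_cylinder _ _)
    obtain ⟨k, hk⟩ := hbE n
    refine ⟨Nat.pair k (Encodable.encode ((pre b (max k m0)).drop m0)), Z n, ?_⟩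
    have e : τ = (pre b (max k m0)).take m0 := by
      rw [pre_take _ (le_max_right _ _)]
      exact List.map_congr_left fun i hi => (hb i (List.mem_range.1 hi)).symm
    simp only [h, ext, Nat.unpair_pair, Encodable.encodek, Option.getD_some]
    rw [e, List.take_append_drop, jn_pre]
    exact F.mono _ _ _ _ (pre_prefix _ (by omega)) hk

/-- Two generic extensions form a minimal pair over the base. -/
theorem exists_exact_pair (a y : Cantor) (n : ℕ) {G : Set Cantor}
    (hG : ResIn (PiNat.cylinder y n) G) :
    ∃ b b', b ∈ G ∧ b' ∈ G ∧ ∀ Z, TLe Z (join a b) → TLe Z (join a b') → TLe Z a := by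
  have ho := (isClopen_cylinder y n).isOpen
  have hne : (PiNat.cylinder y n).Nonempty := ⟨y, PiNat.self_mem_cylinder _ _⟩
  obtain ⟨b, -, hb⟩ := hG.exists_mem ho hne
  let I := {Z : Cantor | TLe Z (join a b) ∧ ¬TLe Z a}
  have : Countable I := ((countable_below (join a b)).mono fun Z hZ => hZ.1).to_subtype
  have key : ∀ p : I × Func, ResIn (PiNat.cylinder y n) {b' | ¬Red p.2 (join a b') p.1} := by
    rintro ⟨⟨Z, -, hZ⟩, F⟩
    have hd : Dense (closure {b' | Red F (join a b') Z})ᶜ := by
      refine interior_eq_empty_iff_dense_compl.1 (eq_empty_of_forall_notMem fun z hz => hZ ?_)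
      obtain ⟨m, -, hm⟩ := exists_cylinder_subset isOpen_interior hz 0
      exact le_of_dense_red (hm.trans interior_subset)
    exact Filter.mem_of_superset (residual_of_dense_open isClosed_closure.isOpen_compl hd)
      fun z hz => Or.inl fun h => hz (subset_closure h)
  obtain ⟨b', -, hb'⟩ := (hG.inter (ResIn.iInter key)).exists_mem ho hne
  refine ⟨b, b', hb, hb'.1, fun Z h1 h2 => ?_⟩
  by_contra hZ
  obtain ⟨F, hF⟩ := tle_iff.1 h2
  exact mem_iInter.1 hb'.2 (⟨Z, h1, hZ⟩, F) hF

end Vale.Agent.P327
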