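import Vale.Agent.P327.Iter

/-! Homeomorphisms of Cantor space that respect Turing reducibility fix every Turing degree. -/

namespace Vale.Agent.P327

open Set

theorem continuous_xr : Continuous fun p : Cantor × Cantor => xr p.1 p.2 :=
  continuous_pi fun n => by
    have := (continuous_of_discreteTopology (f := fun z : Bool × Bool => xor z.1 z.2)).comp
      (((continuous_apply n).comp continuous_fst).prodMk ((continuous_apply n).comp continuous_snd) :
        Continuous fun p : Cantor × Cantor => (p.1 n, p.2 n))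
    exact this

theorem continuous_xr_right (s : Cantor) : Continuous fun a => xr a s :=
  continuous_xr.comp (continuous_id.prodMk continuous_const)

theorem xr_cancel_right (a b : Cantor) : xr (xr a b) b = a := by
  funext i; simp [xr]

theorem isOpenMap_xr_right (s : Cantor) : IsOpenMap fun a => xr a s :=
  IsOpenMap.of_inverse (continuous_xr_right s) (fun a => xr_cancel_right a s)
    fun a => xr_cancel_right a s

theorem mem_cylinder_xr {a b x y : Cantor} {n : ℕ} (ha : a ∈ PiNat.cylinder x n)
    (hb : b ∈ PiNat.cylinder y n) : xr a b ∈ PiNat.cylinder (xr x y) n := fun i hi => by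
  simp [xr, ha i hi, hb i hi]

/-- Keep the bits below `q` and shift the later ones down by one. -/
def shiftFrom (q : ℕ) (a : Cantor) : Cantor := fun i => if i < q then a i else a (i + 1)

theorem shiftFrom_xr (q : ℕ) (a b : Cantor) :
    shiftFrom q (xr a b) = xr (shiftFrom q a) (shiftFrom q b) := by
  funext i; simp only [shiftFrom, xr]; split_ifs <;> rfl

theorem continuous_shiftFrom (q : ℕ) : Continuous (shiftFrom q) := by
  refine continuous_pi fun i => ?_
  unfold shiftFrom
  split_ifs <;> exact continuous_apply _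

theorem isOpenMap_shiftFrom (q : ℕ) : IsOpenMap (shiftFrom q) := by
  intro O hO
  refine isOpen_iff_mem_nhds.2 ?_
  rintro _ ⟨x, hx, rfl⟩
  obtain ⟨n, hn, hsub⟩ := exists_cylinder_subset hO hx (q + 1)
  refine Filter.mem_of_superset ((isClopen_cylinder (shiftFrom q x) n).isOpen.mem_nhds
    (PiNat.self_mem_cylinder _ _)) fun z hz => ?_
  refine ⟨fun i => if i < q then z i else if i = q then x q else z (i - 1), hsub fun i hi => ?_, ?_⟩
  · by_cases h1 : i < q
    · simp [h1, hz i hi, shiftFrom]
    · by_cases h2 : i = q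
      · simp [h2]
      · have h3 := hz (i - 1) (by omega)
        simp only [h1, h2, if_false]
        rw [h3, shiftFrom, if_neg (by omega)]
        congr 1; omega
  · funext i
    simp only [shiftFrom]
    split_ifs <;> first | rfl | omega

theorem tle_shiftFrom (q : ℕ) (a : Cantor) : TLe (shiftFrom q a) a := by
  have hp : Primrec fun n : ℕ => if n < q then n else n + 1 :=
    Primrec.ite (Primrec.nat_lt.comp Primrec.id (Primrec.const q)) Primrec.id Primrec.succ
  convert tle_read hp (Primrec.const false) a using 1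
  funext i; simp only [shiftFrom, Bool.xor_false]; split_ifs <;> rfl

theorem tle_xr_fin {t : ℕ} {s : Cantor} (hs : ∀ i, t ≤ i → s i = false) (b : Cantor) :
    TLe (xr b s) b := by
  have hw : Primrec fun n : ℕ => (pre s t).getD n false :=
    (Primrec.list_getD false).comp (Primrec.const _) Primrec.id
  convert tle_read Primrec.id hw b using 1
  funext i
  by_cases h : i < t
  · simp [xr, List.getD_eq_getElem?_getD, h]
  · simp [xr, List.getD_eq_getElem?_getD, h, hs i (not_lt.1 h)]

theorem shiftFrom_mem {q : ℕ} {a x : Cantor} (ha : a ∈ PiNat.cylinder x q) :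
    shiftFrom q a ∈ PiNat.cylinder x q := fun i hi => by simp [shiftFrom, hi, ha i hi]

theorem shiftFrom_iterate_mem {q : ℕ} {a x : Cantor} (ha : a ∈ PiNat.cylinder x q) :
    ∀ n, (shiftFrom q)^[n] a ∈ PiNat.cylinder x q
  | 0 => ha
  | n + 1 => by
    rw [Function.iterate_succ_apply']; exact shiftFrom_mem (shiftFrom_iterate_mem ha n)

theorem shiftFrom_iterate_apply (q : ℕ) : ∀ (n : ℕ) (a : Cantor) (i : ℕ), q ≤ i →
    (shiftFrom q)^[n] a i = a (i + n)
  | 0, _, _, _ => rfl
  | n + 1, a, i, hi => by
    rw [Function.iterate_succ_apply, shiftFrom_iterate_apply q n _ i hi, shiftFrom,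
      if_neg (by omega)]
    rfl

/-- A continuous map to a finite discrete set depends only on boundedly many bits. -/
theorem exists_modulus {β : Type*} [TopologicalSpace β] [DiscreteTopology β] {φ : Cantor → β}
    (hφ : Continuous φ) : ∃ N, ∀ x y, y ∈ PiNat.cylinder x N → φ y = φ x := by
  let V : ℕ → Set Cantor := fun n => {x | ∀ y ∈ PiNat.cylinder x n, φ y = φ x}
  have hopen : ∀ n, IsOpen (V n) := fun n => isOpen_iff_mem_nhds.2 fun x hx =>
    Filter.mem_of_superset ((isClopen_cylinder x n).isOpen.mem_nhds (PiNat.self_mem_cylinder _ _))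
      fun z hz y hy => by
        rw [PiNat.mem_cylinder_iff_eq.1 hz] at hy
        exact (hx y hy).trans (hx z hz).symm
  have hcov : univ ⊆ ⋃ n, V n := fun x _ => by
    obtain ⟨n, -, hn⟩ := exists_cylinder_subset ((isOpen_discrete {φ x}).preimage hφ)
      (show x ∈ φ ⁻¹' {φ x} from rfl) 0
    exact mem_iUnion.2 ⟨n, fun y hy => hn hy⟩
  obtain ⟨N, hN⟩ := isCompact_univ.elim_directed_cover V hopen hcov
    (directed_of_isDirected_le fun m n h x hx y hy => hx y (PiNat.cylinder_anti x h hy))
  exact ⟨N, fun x y hy => hN (mem_univ x) y hy⟩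

variable (f : Cantor ≃ₜ Cantor) (hf : ∀ X Y, TLe (f X) (f Y) ↔ TLe X Y)
include hf

theorem f_join_le (a b : Cantor) : TLe (f (join a b)) (join (f a) (f b)) := by
  have h : TLe (join a b) (f.symm (join (f a) (f b))) := by
    refine tle_join ((hf _ _).1 ?_) ((hf _ _).1 ?_) <;> rw [f.apply_symm_apply]
    · exact tle_join_left _ _
    · exact tle_join_right _ _
  simpa using (hf _ _).2 h

theorem f_join_ge (a b : Cantor) : TLe (join (f a) (f b)) (f (join a b)) :=
  tle_join ((hf _ _).2 (tle_join_left _ _)) ((hf _ _).2 (tle_join_right _ _))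

theorem f_xr_le (a b : Cantor) : TLe (f (xr a b)) (join (f a) (f b)) :=
  tle_trans ((hf _ _).2 (tle_xr a b)) (f_join_le f hf a b)

/-- Inside every cylinder, generic pairs compute the first point from the two images. -/
theorem local_decoding (x0 : Cantor) (k0 : ℕ) :
    ∃ x y n, k0 ≤ n ∧ x ∈ PiNat.cylinder x0 k0 ∧
      ResIn (PiNat.cylinder x n ×ˢ PiNat.cylinder y n)
        {p : Cantor × Cantor | TLe p.1 (join (f p.1) (f p.2))} := by
  let U : Cantor × Cantor → Cantor := fun p => join (f p.1) (f p.2)
  have hU : Continuous U := continuous_join.comp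
    ((f.continuous.comp continuous_fst).prodMk (f.continuous.comp continuous_snd))
  have hv : Continuous fun p : Cantor × Cantor => f (xr p.1 p.2) := f.continuous.comp continuous_xr
  let E : Func → Set (Cantor × Cantor) := fun F => {p | Red F (U p) (f (xr p.1 p.2))}
  have hE : ∀ F, IsGδ (E F) := fun F => isGδ_red F hU hv
  have hcov : ∀ p : Cantor × Cantor, ∃ F, p ∈ E F := fun p => tle_iff.1 (f_xr_le f hf p.1 p.2)
  -- two translation boxes and one shift cylinder
  obtain ⟨F1, x1, y1, n1, hk1, hx1, -, hE1⟩ := baire_two x0 x0 k0 hE hcov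
  obtain ⟨F2, x2, y2, q, hq, hx2, hy2, hE2⟩ := baire_two (xr x1 y1) y1 n1 hE hcov
  let xa := xr x2 y2
  obtain ⟨K, x3, t, hqt, hx3, hE3⟩ := baire_one xa q
    (fun K => isGδ_red K f.continuous (f.continuous.comp (continuous_shiftFrom q)))
    (fun a => tle_iff.1 ((hf _ _).2 (tle_shiftFrom q a)))
  have hxa : xa ∈ PiNat.cylinder x1 n1 := by
    have := mem_cylinder_xr hx2 hy2
    rwa [xr_cancel_right] at this
  refine ⟨xa, y2, q, le_trans hk1 hq, ?_, ?_⟩
  · rw [← PiNat.mem_cylinder_iff_eq.1 hx1]
    exact PiNat.cylinder_anti _ hk1 hxa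
  let α := PiNat.cylinder xa q
  let β := PiNat.cylinder y2 q
  have hαβ1 : α ×ˢ β ⊆ PiNat.cylinder x1 n1 ×ˢ PiNat.cylinder y1 n1 := by
    refine prod_mono ?_ ?_
    · refine (PiNat.cylinder_anti _ hq).trans (le_of_eq ?_)
      exact PiNat.mem_cylinder_iff_eq.1 hxa
    · refine (PiNat.cylinder_anti _ hq).trans (le_of_eq ?_)
      exact PiNat.mem_cylinder_iff_eq.1 hy2
  -- pairs at which translation by `s` is computable
  let Tr : Cantor → Set (Cantor × Cantor) := fun s =>
    {p | p ∈ E F1 ∧ (xr p.1 p.2, xr p.2 s) ∈ E F2}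
  have hTr : ∀ s : Cantor, (∀ i < q, s i = false) → ResIn (α ×ˢ β) (Tr s) := by
    intro s hs
    refine (hE1.subset hαβ1).inter
      (ResIn.preimage (h := fun p : Cantor × Cantor => (xr p.1 p.2, xr p.2 s))
      (continuous_xr.prodMk ((continuous_xr_right s).comp continuous_snd)) ?_ hE2 ?_)
    · refine IsOpenMap.of_inverse (f' := fun p => (xr p.1 (xr p.2 s), xr p.2 s))
        ((continuous_xr.comp (continuous_fst.prodMk
          ((continuous_xr_right s).comp continuous_snd))).prodMk
          ((continuous_xr_right s).comp continuous_snd)) ?_ ?_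
      all_goals rintro ⟨a, b⟩; simp only [Prod.mk.injEq]; constructor <;> funext i <;> simp [xr]
    · rintro ⟨a, b⟩ ⟨ha, hb⟩
      refine ⟨fun i hi => ?_, fun i hi => ?_⟩
      · have h1 : a i = xr x2 y2 i := ha i hi
        have h2 : b i = y2 i := hb i hi
        simp [xr, h1, h2]
      · have h2 : b i = y2 i := hb i hi
        simp [xr, h2, hs i hi]
  have trans : ∀ (s : Cantor) (Φ : Func) (a b : Cantor), Red Φ (f b) (f (xr b s)) → (a, b) ∈ Tr s →
      Red (Func.comp F2 (Func.pair F1 (Func.comp Φ Func.right))) (U (a, b)) (f (xr a s)) := by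
    rintro s Φ a b hΦ ⟨h1, h2⟩
    have h := red_comp (red_pair (show Red F1 (U (a, b)) (f (xr a b)) from h1)
      (red_comp (red_right (f a) (f b)) hΦ))
      (show Red F2 (join (f (xr a b)) (f (xr b s))) (f (xr (xr a b) (xr b s))) from h2)
    have e : xr (xr a b) (xr b s) = xr a s := by funext i; simp [xr]
    rwa [e] at h
  -- the finitely many shifts
  let s1 : (Fin t → Bool) → Cantor := fun w i =>
    if q ≤ i then (if h : i < t then xor (w ⟨i, h⟩) (x3 i) else false) else false
  let s2 : (Fin t → Bool) → Cantor := fun w => shiftFrom q (s1 w)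
  have s1q : ∀ w, ∀ i < q, s1 w i = false := fun w i hi => by simp [s1, not_le.2 hi]
  have s2q : ∀ w, ∀ i < q, s2 w i = false := fun w i hi => by
    simp [s2, shiftFrom, hi, s1q w i hi]
  have s1t : ∀ w, ∀ i, t ≤ i → s1 w i = false := fun w i hi => by simp [s1, not_lt.2 hi]
  have s2t : ∀ w, ∀ i, t ≤ i → s2 w i = false := fun w i hi => by
    simp only [s2, shiftFrom]
    split_ifs <;> exact s1t w _ (by omega)
  let g : (Fin t → Bool) → Cantor × Cantor → Cantor × Cantor := fun w p =>
    (shiftFrom q (xr p.1 (s1 w)), p.2)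
  have gc : ∀ w, Continuous (g w) := fun w =>
    ((continuous_shiftFrom q).comp ((continuous_xr_right _).comp continuous_fst)).prodMk
      continuous_snd
  have go : ∀ w, IsOpenMap (g w) := fun w =>
    ((isOpenMap_shiftFrom q).comp (isOpenMap_xr_right (s1 w))).prodMap IsOpenMap.id
  have gm : ∀ w, MapsTo (g w) (α ×ˢ β) (α ×ˢ β) := by
    rintro w ⟨a, b⟩ ⟨ha, hb⟩
    exact ⟨shiftFrom_mem fun i hi => by simp [xr, show a i = xa i from ha i hi, s1q w i hi], hb⟩
  let T0 : Set (Cantor × Cantor) := ⋂ w : Fin t → Bool, Tr (s1 w) ∩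
    {p | xr p.1 (s1 w) ∈ PiNat.cylinder x3 t →
      Red K (f (xr p.1 (s1 w))) (f (shiftFrom q (xr p.1 (s1 w))))} ∩ g w ⁻¹' Tr (s2 w)
  have hT0 : ResIn (α ×ˢ β) T0 := ResIn.iInter fun w => by
    refine ((hTr _ (s1q w)).inter ?_).inter
      (ResIn.preimage (gc w) (go w) (hTr _ (s2q w)) (gm w))
    refine Filter.mem_of_superset (residual_preimage
      ((continuous_xr_right (s1 w)).comp continuous_fst)
      ((isOpenMap_xr_right (s1 w)).comp isOpenMap_fst) hE3) fun p hp => ?_
    rcases hp with hp | hp
    · exact Or.inl fun _ => hp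
    · exact Or.inl fun h => absurd h hp
  let T : Set (Cantor × Cantor) :=
    ⋂ n : ℕ, (fun p : Cantor × Cantor => ((shiftFrom q)^[n] p.1, p.2)) ⁻¹' T0
  have hT : ResIn (α ×ˢ β) T := ResIn.iInter fun n => by
    have ho : IsOpenMap (shiftFrom q)^[n] := by
      induction n with
      | zero => exact IsOpenMap.id
      | succ n ih => rw [Function.iterate_succ']; exact (isOpenMap_shiftFrom q).comp ih
    refine ResIn.preimage ((((continuous_shiftFrom q).iterate n).comp continuous_fst).prodMk
      continuous_snd) (ho.prodMap IsOpenMap.id) hT0 ?_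
    rintro ⟨a, b⟩ ⟨ha, hb⟩
    exact ⟨shiftFrom_iterate_mem ha n, hb⟩
  refine hT.mono ?_
  rintro ⟨a, b⟩ ⟨ha, hb⟩ hab
  -- functionals for the fixed second coordinate
  choose Φ1 hΦ1 using fun w => tle_iff.1 ((hf (xr b (s1 w)) b).2 (tle_xr_fin (s1t w) b))
  choose Φ2 hΦ2 using fun w => tle_iff.1 ((hf (xr b (s2 w)) b).2 (tle_xr_fin (s2t w) b))
  let R1 := fun w => Func.comp F2 (Func.pair F1 (Func.comp (Φ1 w) Func.right))
  let R2 := fun w => Func.comp F2 (Func.pair F1 (Func.comp (Φ2 w) Func.right))
  let Mw := fun w => Func.pair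
    (Func.comp (R2 w) (Func.pair (Func.comp K (R1 w)) Func.right)) Func.right
  let φ : Cantor → (Fin t → Bool) := fun z i => f.symm z i
  obtain ⟨N, hN⟩ := exists_modulus (φ := φ)
    (continuous_pi fun i => (continuous_apply (i : ℕ)).comp f.symm.continuous)
  let wOf : List Bool → (Fin t → Bool) := fun l => φ fun i => l.getD (2 * i) false
  obtain ⟨M, hM⟩ := exists_red_cases (Finset.univ : Finset (Fin t → Bool)) (2 * N) wOf Mw
  let S : ℕ → Cantor := fun n => U ((shiftFrom q)^[n] a, b)
  have hstep : ∀ n, Red M (S n) (S (n + 1)) := by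
    intro n
    have hn : ((shiftFrom q)^[n] a, b) ∈ T0 := mem_iInter.1 hab n
    have hc := shiftFrom_iterate_mem ha n
    simp only [S, Function.iterate_succ_apply']
    generalize (shiftFrom q)^[n] a = c at hn hc
    refine hM _ _ (Finset.mem_univ _) ?_
    have hw : wOf (pre (U (c, b)) (2 * N)) = fun i : Fin t => c i := by
      refine (hN (f c) _ fun i hi => ?_).trans (funext fun i => by simp [φ])
      rw [pre_getD _ (by omega)]
      exact join_even _ _ i
    rw [hw]
    set w : Fin t → Bool := fun i => c i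
    obtain ⟨⟨h1, h3⟩, h2⟩ := mem_iInter.1 hn w
    have hc3 : xr c (s1 w) ∈ PiNat.cylinder x3 t := fun i hi => by
      by_cases h : q ≤ i
      · simp [xr, s1, w, h, hi]
      · simp [xr, s1, h, hc i (not_le.1 h), hx3 i (not_le.1 h)]
    have r1 := red_comp (trans _ _ c b (hΦ1 w) h1) (h3 hc3)
    have r2 := red_comp (red_pair r1 (red_right (f c) (f b)))
      (trans _ _ (shiftFrom q (xr c (s1 w))) b (hΦ2 w) h2)
    have e : xr (shiftFrom q (xr c (s1 w))) (s2 w) = shiftFrom q c := by
      simp only [s2, ← shiftFrom_xr, xr_cancel_right]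
    rw [e] at r2
    exact red_pair r2 (red_right (f c) (f b))
  obtain ⟨N', hN'⟩ := exists_modulus (φ := fun z => f.symm z q)
    ((continuous_apply q).comp f.symm.continuous)
  have hit := red_iter (M := M) (N := 2 * N')
    (h := fun l => f.symm (fun i => l.getD (2 * i) false) q) (out := fun n => a (q + n)) hstep
    fun n => by
      refine (hN' (f ((shiftFrom q)^[n] a)) _ fun i hi => ?_).trans ?_
      · rw [pre_getD _ (by omega)]
        exact join_even _ _ i
      · simp [shiftFrom_iterate_apply q n a q le_rfl]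
  have hout : TLe (fun n => a (q + n)) (U (a, b)) := tle_iff.2 ⟨_, hit⟩
  refine tle_trans ?_ hout
  let w : List Bool := (List.range q).map fun i => xor (a i) (a (q + (i - q)))
  have hw : Primrec fun n : ℕ => w.getD n false :=
    (Primrec.list_getD false).comp (Primrec.const _) Primrec.id
  convert tle_read (p := fun n => n - q) (Primrec.nat_sub.comp Primrec.id (Primrec.const q)) hw
    (fun n => a (q + n)) using 1
  funext i
  by_cases h : i < q
  · simp [w, List.getD_eq_getElem?_getD, h]
    cases a i <;> cases a (q + (i - q)) <;> rfl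
  · simp [w, List.getD_eq_getElem?_getD, h, show q + (i - q) = i by omega]

/-- Comeagrely many sets are computable from their images. -/
theorem residual_le : {a | TLe a (f a)} ∈ residual Cantor := by
  let c : List Bool → Set Cantor := fun l => PiNat.cylinder (fun i => l.getD i false) l.length
  let G := {l : List Bool | ResIn (c l) {a | TLe a (f a)}}
  let V := ⋃ l ∈ G, c l
  have hVo : IsOpen V := isOpen_biUnion fun l _ => (isClopen_cylinder _ _).isOpen
  have hVd : Dense V := by
    refine dense_iff_inter_open.2 fun O hO ⟨z, hz⟩ => ?_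
    obtain ⟨k, -, hk⟩ := exists_cylinder_subset hO hz 0
    obtain ⟨x, y, n, hkn, hx, hres⟩ := local_decoding f hf z k
    refine ⟨x, hk hx, mem_biUnion (x := pre x n) ?_ fun i hi => ?_⟩
    · have e : c (pre x n) = PiNat.cylinder x n := by
        simp only [c, pre_length]
        exact PiNat.mem_cylinder_iff_eq.1 fun i hi => pre_getD x hi
      show ResIn _ _
      rw [e]
      refine Filter.mem_of_superset (residual_sections hres) fun a ha => ?_
      by_cases hax : a ∈ PiNat.cylinder x n
      · left
        have hG : ResIn (PiNat.cylinder y n) {b | TLe a (join (f a) (f b))} := by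
          refine Filter.mem_of_superset ha fun b hb => ?_
          by_cases hby : b ∈ PiNat.cylinder y n
          · exact Or.inl (hb.resolve_right (not_not.2 ⟨hax, hby⟩))
          · exact Or.inr hby
        obtain ⟨b, b', hb, hb', hmeet⟩ := exists_exact_pair a y n hG
        have key : ∀ b, TLe a (join (f a) (f b)) → TLe (f.symm a) (join a b) := fun b hb => by
          refine (hf _ _).1 ?_
          rw [f.apply_symm_apply]
          exact tle_trans hb (f_join_ge f hf a b)
        have := (hf _ _).2 (hmeet _ (key b hb) (key b' hb'))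
        rwa [f.apply_symm_apply] at this
      · exact Or.inr hax
    · rw [pre_length] at hi
      exact (pre_getD x hi).symm
  have h1 : (⋂ l : G, ({a | TLe a (f a)} ∪ (c l)ᶜ)) ∈ residual Cantor :=
    countable_iInter_mem.2 fun l => l.2
  refine Filter.mem_of_superset (Filter.inter_mem h1 (residual_of_dense_open hVo hVd)) ?_
  rintro a ⟨ha, hV⟩
  obtain ⟨l, hl, hal⟩ := mem_iUnion₂.1 hV
  exact (mem_iInter.1 ha ⟨l, hl⟩).resolve_right (not_not.2 hal)

/-- A homeomorphism respecting reducibility in both directions fixes every degree. -/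
theorem homeomorph_fixes_degrees (A : Cantor) : TLe (f A) A ∧ TLe A (f A) := by
  have hs : ∀ X Y, TLe (f.symm X) (f.symm Y) ↔ TLe X Y := fun X Y => by
    rw [← hf, f.apply_symm_apply, f.apply_symm_apply]
  have hS : {g | TLe (f g) g ∧ TLe g (f g)} ∈ residual Cantor := by
    refine Filter.mem_of_superset (Filter.inter_mem (residual_le f.symm hs) (residual_le f hf)) ?_
    rintro g ⟨h1, h2⟩
    refine ⟨?_, h2⟩
    have := (hf _ _).2 h1
    rwa [f.apply_symm_apply] at this
  have hG : ResIn (PiNat.cylinder A 0)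
      {g | (TLe (f g) g ∧ TLe g (f g)) ∧ TLe (f (xr g A)) (xr g A) ∧ TLe (xr g A) (f (xr g A))} :=
    Filter.mem_of_superset (Filter.inter_mem hS
      (residual_preimage (continuous_xr_right A) (isOpenMap_xr_right A) hS)) fun g hg => Or.inl hg
  obtain ⟨b, b', hb, hb', hmeet⟩ := exists_exact_pair A A 0 hG
  have hA : ∀ g, TLe A (join g (xr g A)) := fun g => by
    have := tle_xr g (xr g A)
    rwa [show xr g (xr g A) = A by funext i; simp [xr]] at this
  have hgA : ∀ g, TLe (xr g A) (join A g) := fun g =>
    tle_trans (tle_xr g A) (tle_join (tle_join_right _ _) (tle_join_left _ _))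
  have fix1 : ∀ g, (TLe (f g) g ∧ TLe g (f g)) ∧
      (TLe (f (xr g A)) (xr g A) ∧ TLe (xr g A) (f (xr g A))) →
      TLe (f A) (join A g) ∧ TLe (f.symm A) (join A g) := by
    rintro g ⟨⟨hg1, hg2⟩, hx1, hx2⟩
    constructor
    · refine tle_trans ((hf _ _).2 (hA g)) (tle_trans (f_join_le f hf _ _) ?_)
      exact tle_join (tle_trans hg1 (tle_join_right _ _)) (tle_trans hx1 (hgA g))
    · refine (hf _ _).1 ?_
      rw [f.apply_symm_apply]
      exact tle_trans (hA g) (tle_join (tle_trans hg2 ((hf _ _).2 (tle_join_right _ _)))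
        (tle_trans hx2 ((hf _ _).2 (hgA g))))
  refine ⟨hmeet _ (fix1 b hb).1 (fix1 b' hb').1, ?_⟩
  have := (hf _ _).2 (hmeet _ (fix1 b hb).2 (fix1 b' hb').2)
  rwa [f.apply_symm_apply] at this

end Vale.Agent.P327
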