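import Vale.Agent.P327.Func

/-! Closure properties of approximations: joins, composition, shifts, finite case splits. -/

namespace Vale.Agent.P327

/-- Even positions `X`, odd positions `Y`. -/
def join (X Y : Cantor) : Cantor := fun n => if n % 2 = 0 then X (n / 2) else Y (n / 2)

/-- The sum in the group of subsets under symmetric difference. -/
def xr (X Y : Cantor) : Cantor := fun n => xor (X n) (Y n)

theorem primrec_bxor : Primrec₂ fun a b : Bool => xor a b :=
  (Primrec.cond Primrec.fst (Primrec.not.comp Primrec.snd) Primrec.snd).to₂.of_eq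
    fun a b => by cases a <;> cases b <;> rfl

@[simp] theorem pre_getElem (X : Cantor) (k n : ℕ) (h : n < (pre X k).length) :
    (pre X k)[n] = X n := by simp [pre]

/-- Reading the oracle at a computable position and applying a computable change. -/
def Func.read (p : ℕ → ℕ) (hp : Primrec p) (w : ℕ → Bool) (hw : Primrec w) : Func where
  f σ n := (σ[p n]?).map fun b => xor b (w n)
  prim := by
    refine Primrec.option_map (Primrec.list_getElem?.comp Primrec.fst (hp.comp Primrec.snd)) ?_
    exact (Primrec₂.comp primrec_bxor Primrec.snd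
      (hw.comp (Primrec.snd.comp Primrec.fst))).to₂
  mono σ τ n v h hv := by
    obtain ⟨r, rfl⟩ := h
    simp only [Option.map_eq_some_iff] at hv ⊢
    obtain ⟨b, hb, hbv⟩ := hv
    exact ⟨b, by rw [List.getElem?_append_left (List.getElem?_eq_some_iff.1 hb).1]; exact hb, hbv⟩

theorem red_read {p : ℕ → ℕ} {hp : Primrec p} {w : ℕ → Bool} {hw : Primrec w} (Y : Cantor) :
    Red (Func.read p hp w hw) Y fun n => xor (Y (p n)) (w n) := fun n =>
  ⟨p n + 1, by simp [Func.read]⟩

theorem primrec_double : Primrec fun n : ℕ => 2 * n :=
  Primrec.nat_mul.comp (Primrec.const 2) Primrec.id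

theorem primrec_odd : Primrec fun n : ℕ => 2 * n + 1 := Primrec.succ.comp primrec_double

theorem join_even (X Y : Cantor) (n : ℕ) : join X Y (2 * n) = X n := by
  simp [join]

theorem join_odd (X Y : Cantor) (n : ℕ) : join X Y (2 * n + 1) = Y n := by
  simp [join, Nat.add_mod, show (2 * n + 1) / 2 = n by omega]

/-- The left projection. -/
def Func.left : Func := Func.read _ primrec_double _ (Primrec.const false)

/-- The right projection. -/
def Func.right : Func := Func.read _ primrec_odd _ (Primrec.const false)

theorem red_left (X Y : Cantor) : Red Func.left (join X Y) X := by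
  intro n
  simpa [Func.left, join_even] using red_read (hp := primrec_double) (hw := Primrec.const false) (join X Y) n

theorem red_right (X Y : Cantor) : Red Func.right (join X Y) Y := by
  intro n
  simpa [Func.right, join_odd] using red_read (hp := primrec_odd) (hw := Primrec.const false) (join X Y) n

theorem primrec_even : Primrec fun n : ℕ => n % 2 == 0 :=
  Primrec.beq.comp (Primrec.nat_mod.comp Primrec.id (Primrec.const 2)) (Primrec.const 0)

/-- Two computations side by side. -/
def Func.pair (F G : Func) : Func where
  f σ n := bif n % 2 == 0 then F.f σ (n / 2) else G.f σ (n / 2)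
  prim := Primrec.cond (primrec_even.comp Primrec.snd)
    (F.prim.comp Primrec.fst (Primrec.nat_div.comp Primrec.snd (Primrec.const 2)))
    (G.prim.comp Primrec.fst (Primrec.nat_div.comp Primrec.snd (Primrec.const 2)))
  mono σ τ n v h := by
    cases n % 2 == 0
    · exact G.mono σ τ _ v h
    · exact F.mono σ τ _ v h

theorem red_pair {F G : Func} {Z X Y : Cantor} (hF : Red F Z X) (hG : Red G Z Y) :
    Red (Func.pair F G) Z (join X Y) := by
  intro n
  rcases Nat.mod_two_eq_zero_or_one n with h | h
  · simpa [Func.pair, join, h] using hF (n / 2)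
  · simpa [Func.pair, join, h] using hG (n / 2)

/-- The longest initial segment of the output visible from an oracle prefix. -/
def scl (F : Func) (σ : List Bool) : List Bool :=
  (List.range ((List.range σ.length).findIdx fun i => (F.f σ i).isNone)).map
    fun i => (F.f σ i).getD false

theorem scl_primrec (F : Func) : Primrec (scl F) := by
  refine Primrec.list_map (Primrec.list_range.comp ?_) ?_
  · refine Primrec.list_findIdx (Primrec.list_range.comp Primrec.list_length) ?_
    have : Primrec fun o : Option Bool => o.isNone :=
      (Primrec.not.comp Primrec.option_isSome).of_eq fun o => by cases o <;> rfl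
    exact (this.comp (F.prim.comp Primrec.fst Primrec.snd)).to₂
  · exact (Primrec.option_getD.comp (F.prim.comp Primrec.fst Primrec.snd)
      (Primrec.const false)).to₂

theorem scl_lt {F : Func} {σ : List Bool} {i : ℕ}
    (hi : i < (List.range σ.length).findIdx fun i => (F.f σ i).isNone) :
    ∃ v, F.f σ i = some v := by
  have := List.not_of_lt_findIdx hi
  rw [List.getElem_range] at this
  cases h : F.f σ i with
  | none => simp [h] at this
  | some v => exact ⟨v, rfl⟩

theorem le_findIdx_range {p : ℕ → Bool} {L j : ℕ} (hj : j ≤ L) (h : ∀ i < j, p i = false) :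
    j ≤ (List.range L).findIdx p := by
  by_contra hlt
  push Not at hlt
  have hl : (List.range L).findIdx p < (List.range L).length := by simpa using lt_of_lt_of_le hlt hj
  have := List.findIdx_getElem (w := hl)
  rw [List.getElem_range, h _ hlt] at this
  exact Bool.noConfusion this

theorem scl_mono (F : Func) {σ τ : List Bool} (h : σ <+: τ) : scl F σ <+: scl F τ := by
  set a := (List.range σ.length).findIdx fun i => (F.f σ i).isNone
  set b := (List.range τ.length).findIdx fun i => (F.f τ i).isNone
  have hab : a ≤ b := by
    refine le_findIdx_range (le_trans ?_ h.length_le) fun i hi => ?_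
    · simpa using List.findIdx_le_length
        (p := fun i => (F.f σ i).isNone) (xs := List.range σ.length)
    · obtain ⟨v, hv⟩ := scl_lt hi
      simp [F.mono σ τ i v h hv]
  have e : scl F σ = (List.range a).map fun i => (F.f τ i).getD false := by
    refine List.map_congr_left fun i hi => ?_
    obtain ⟨v, hv⟩ := scl_lt (List.mem_range.1 hi)
    simp [hv, F.mono σ τ i v h hv]
  rw [e]
  apply List.IsPrefix.map
  exact ⟨(List.range (b - a)).map (fun x => a + x), by rw [← List.range_add]; congr 1; omega⟩

theorem red_scl {F : Func} {Y X : Cantor} (h : Red F Y X) (k : ℕ) :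
    scl F (pre Y k) = pre X (scl F (pre Y k)).length := by
  simp only [scl, List.length_map, List.length_range]
  show _ = (List.range _).map X
  refine List.map_congr_left fun i hi => ?_
  obtain ⟨v, hv⟩ := scl_lt (List.mem_range.1 hi)
  change F.f (pre Y k) i = some v at hv
  show (F.f (pre Y k) i).getD false = X i
  rw [hv, h.value hv]
  rfl

theorem red_scl_large {F : Func} {Y X : Cantor} (h : Red F Y X) (j : ℕ) :
    ∃ k0, ∀ k, k0 ≤ k → j ≤ (scl F (pre Y k)).length := by
  obtain ⟨k0, hk⟩ := h.at_large j
  refine ⟨max k0 j, fun k hkk => ?_⟩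
  simp only [scl, List.length_map, List.length_range]
  exact le_findIdx_range (by simpa using le_trans (le_max_right _ _) hkk)
    fun i hi => by simp [hk k (le_trans (le_max_left _ _) hkk) i hi]

/-- Composition: run `G` on the output of `F`. -/
def Func.comp (G F : Func) : Func where
  f σ n := G.f (scl F σ) n
  prim := G.prim.comp ((scl_primrec F).comp Primrec.fst) Primrec.snd
  mono _ _ n v h hv := G.mono _ _ n v (scl_mono F h) hv

theorem red_comp {F G : Func} {X Y Z : Cantor} (hF : Red F X Y) (hG : Red G Y Z) :
    Red (Func.comp G F) X Z := by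
  intro n
  obtain ⟨j, hj⟩ := hG n
  obtain ⟨k0, hk⟩ := red_scl_large hF j
  refine ⟨k0, G.mono _ _ n _ ?_ hj⟩
  rw [red_scl hF k0]
  exact pre_prefix Y (hk k0 le_rfl)

/-- A function of the first `N` bits, extended by a default, is primitive recursive. -/
theorem primrec_take_fun : ∀ (N : ℕ) (g : List Bool → Bool),
    Primrec fun σ : List Bool => g (σ.take N)
  | 0, g => (Primrec.const (g [])).of_eq fun σ => by simp
  | N + 1, g => by
    refine (Primrec.list_casesOn (h := fun _ p => bif p.1 then g (true :: p.2.take N)
      else g (false :: p.2.take N)) Primrec.id (Primrec.const (g [])) ?_).of_eq ?_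
    · exact (Primrec.cond (Primrec.fst.comp Primrec.snd)
        ((primrec_take_fun N fun l => g (true :: l)).comp (Primrec.snd.comp Primrec.snd))
        ((primrec_take_fun N fun l => g (false :: l)).comp (Primrec.snd.comp Primrec.snd))).to₂
    · intro σ
      rcases σ with - | ⟨a, l⟩
      · simp
      · cases a <;> simp

/-- A finite case distinction on the first `N` bits of the oracle. -/
def Func.branch (N : ℕ) (g : List Bool → Bool) (F G : Func) : Func where
  f σ n := bif decide (N ≤ σ.length) then (bif g (σ.take N) then F.f σ n else G.f σ n) else none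
  prim := Primrec.cond
    ((Primrec.nat_le.comp (Primrec.const N) (Primrec.list_length.comp Primrec.fst)).decide)
    (Primrec.cond ((primrec_take_fun N g).comp Primrec.fst)
      (F.prim.comp Primrec.fst Primrec.snd) (G.prim.comp Primrec.fst Primrec.snd))
    (Primrec.const none)
  mono σ τ n v h hv := by
    by_cases hN : N ≤ σ.length
    · have hN' := le_trans hN h.length_le
      have ht : τ.take N = σ.take N := by
        obtain ⟨r, rfl⟩ := h
        exact List.take_append_of_le_length hN
      simp only [hN, hN', decide_true, cond_true, ht] at hv ⊢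
      cases hgv : g (σ.take N) <;> simp only [hgv, cond_true, cond_false] at hv ⊢
      · exact G.mono σ τ n v h hv
      · exact F.mono σ τ n v h hv
    · simp [hN] at hv

theorem red_branch {N : ℕ} {g : List Bool → Bool} {F G : Func} {Y X : Cantor}
    (h : if g (pre Y N) then Red F Y X else Red G Y X) :
    Red (Func.branch N g F G) Y X := by
  intro n
  by_cases hg : g (pre Y N) = true
  · rw [if_pos hg] at h
    obtain ⟨k, hk⟩ := h n
    exact ⟨max k N, by
      simp [Func.branch, pre_take Y (le_max_right k N), hg,
        F.mono _ _ _ _ (pre_prefix Y (le_max_left k N)) hk]⟩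
  · rw [if_neg hg] at h
    obtain ⟨k, hk⟩ := h n
    exact ⟨max k N, by
      simp [Func.branch, pre_take Y (le_max_right k N), hg,
        G.mono _ _ _ _ (pre_prefix Y (le_max_left k N)) hk]⟩

/-- The functional that never answers. -/
def Func.dead : Func where
  f _ _ := none
  prim := (Primrec.const none).to₂
  mono _ _ _ _ _ h := h

/-- A finite case distinction with any finite number of branches. -/
theorem exists_red_cases {ι : Type} [DecidableEq ι] (s : Finset ι) (N : ℕ) (g : List Bool → ι)
    (F : ι → Func) : ∃ H : Func, ∀ Y X, g (pre Y N) ∈ s → Red (F (g (pre Y N))) Y X → Red H Y X := by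
  induction s using Finset.induction with
  | empty => exact ⟨Func.dead, fun _ _ h => absurd h (Finset.notMem_empty _)⟩
  | @insert i s _ ih =>
    obtain ⟨H, hH⟩ := ih
    refine ⟨Func.branch N (fun l => decide (g l = i)) (F i) H, fun Y X hm hr => red_branch ?_⟩
    by_cases h : g (pre Y N) = i
    · rw [h] at hr; simp [h, hr]
    · simp [h, hH Y X ((Finset.mem_insert.1 hm).resolve_left h) hr]

/-! ## Consequences for reducibility -/

theorem tle_read {p : ℕ → ℕ} (hp : Primrec p) {w : ℕ → Bool} (hw : Primrec w) (Y : Cantor) :
    TLe (fun n => xor (Y (p n)) (w n)) Y := tle_iff.2 ⟨_, red_read (hp := hp) (hw := hw) Y⟩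

theorem tle_join_left (X Y : Cantor) : TLe X (join X Y) := tle_iff.2 ⟨_, red_left X Y⟩

theorem tle_join_right (X Y : Cantor) : TLe Y (join X Y) := tle_iff.2 ⟨_, red_right X Y⟩

theorem tle_join {X Y Z : Cantor} (hX : TLe X Z) (hY : TLe Y Z) : TLe (join X Y) Z := by
  obtain ⟨F, hF⟩ := tle_iff.1 hX
  obtain ⟨G, hG⟩ := tle_iff.1 hY
  exact tle_iff.2 ⟨_, red_pair hF hG⟩

/-- Symmetric difference as a functional on joins. -/
def Func.xor : Func where
  f σ n := σ[2 * n]?.bind fun a => (σ[2 * n + 1]?).map fun b => Bool.xor a b
  prim := by
    refine Primrec.option_bind (Primrec.list_getElem?.comp Primrec.fst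
      (primrec_double.comp Primrec.snd)) ?_
    have h₀ : Primrec fun z : (List Bool × ℕ) × Bool => z.1.1[2 * z.1.2 + 1]? :=
      Primrec.list_getElem?.comp (Primrec.fst.comp Primrec.fst)
        (primrec_odd.comp (Primrec.snd.comp Primrec.fst))
    have h₁ : Primrec₂ fun (z : (List Bool × ℕ) × Bool) (b : Bool) => Bool.xor z.2 b :=
      (primrec_bxor.comp (Primrec.snd.comp Primrec.fst) Primrec.snd).to₂
    exact (Primrec.option_map h₀ h₁).to₂
  mono σ τ n v h hv := by
    obtain ⟨r, rfl⟩ := h
    simp only [Option.bind_eq_some_iff, Option.map_eq_some_iff] at hv ⊢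
    obtain ⟨a, ha, b, hb, hv⟩ := hv
    exact ⟨a, by rw [List.getElem?_append_left (List.getElem?_eq_some_iff.1 ha).1]; exact ha,
      b, by rw [List.getElem?_append_left (List.getElem?_eq_some_iff.1 hb).1]; exact hb, hv⟩

theorem red_xor (X Y : Cantor) : Red Func.xor (join X Y) (xr X Y) := fun n =>
  ⟨2 * n + 2, by simp [Func.xor, join_even, join_odd, xr]⟩

theorem tle_xr (X Y : Cantor) : TLe (xr X Y) (join X Y) := tle_iff.2 ⟨_, red_xor X Y⟩

theorem countable_below (Z : Cantor) : {X : Cantor | TLe X Z}.Countable := by
  refine Set.Countable.mono (s₂ := ⋃ F : Func, {X | Red F Z X}) (fun X hX => ?_) ?_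
  · obtain ⟨F, hF⟩ := tle_iff.1 hX
    exact Set.mem_iUnion.2 ⟨F, hF⟩
  · exact Set.countable_iUnion fun F => (Set.Subsingleton.countable fun _ h _ h' => h.unique h')

end Vale.Agent.P327
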